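import Vale.Agent.P174.Main

/-!
P174: nonsingular systems over abelian-by-(residually finite `p`) groups.
-/

namespace Vale.Agent.Results.P174.AbelianByResiduallyP

open Monoid Monoid.Coprod Vale.Agent.P174

theorem result :
    (∀ (p : ℕ), p.Prime → ∀ (G : Type) [Group G] (N : Subgroup G) [N.Normal],
      (∀ a b : N, a * b = b * a) → ResiduallyP p (G ⧸ N) →
        ∀ (m n : ℕ) (w : Fin m → G ∗ FreeGroup (Fin n)),
          LinearIndependent (ZMod p) (fun i j => ((expVec (w i) j : ℤ) : ZMod p)) → Solvable w) ∧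
    (∀ (p : ℕ), p.Prime → ∀ (G : Type) [Group G] (N : Subgroup G) [N.Normal],
      SolvesModP p N → ResiduallyP p (G ⧸ N) → SolvesModP p G) ∧
    (∀ (G : Type) [Group G] (N : Subgroup G) [N.Normal],
      (∀ a b : N, a * b = b * a) → {p : ℕ | p.Prime ∧ ResiduallyP p (G ⧸ N)}.Infinite → Howie G) ∧
    (∀ (G : Type) [Group G], {p : ℕ | p.Prime ∧ SolvesModP p G}.Infinite → Howie G) := by
  have ext : ∀ (p : ℕ), p.Prime → ∀ (G : Type) [Group G] (N : Subgroup G) [N.Normal],
      SolvesModP p N → ResiduallyP p (G ⧸ N) → SolvesModP p G := by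
    intro p hp G _ N _ hN hQ
    have : Fact p.Prime := ⟨hp⟩
    refine SolvesModP.extension (QuotientGroup.mk' N) (QuotientGroup.mk'_surjective N) ?_ hQ
    rwa [QuotientGroup.ker_mk']
  refine ⟨fun p hp G _ N _ hN hQ m n w hw => ext p hp G N (solvesModP_of_comm hp hN) hQ m n w hw,
    ext, fun G _ N _ hN h => howie_of_infinite (h.mono fun p hp => ?_),
    fun G _ h => howie_of_infinite h⟩
  exact ⟨hp.1, ext p hp.1 G N (solvesModP_of_comm hp.1 hN) hp.2⟩

end Vale.Agent.Results.P174.AbelianByResiduallyP
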